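import Mathlib

namespace Vale.Agent.P040.Sph11

open Finset

variable {ι : Type} [DecidableEq ι]

/-- level of the sweep at the moment when it passes `u` (`u` itself not counted) -/
noncomputable def lev (κ : ι → ℝ) (ε : ι → Bool) (s : Finset ι) (u : ι) : ℕ :=
  (s.filter fun v => ε v = true ∧ κ u < κ v).card + (s.filter fun v => ε v = false ∧ κ v < κ u).card

lemma lev_insert_of_mem (κ : ι → ℝ) (ε : ι → Bool) {s : Finset ι} {a u : ι} (ha : a ∉ s)
    (hu : κ u < κ a) :
    lev κ ε (insert a s) u = lev κ ε s u + (if ε a = true then 1 else 0) := by
  unfold lev
  rw [filter_insert, filter_insert]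
  have h2 : ¬ (ε a = false ∧ κ a < κ u) := fun h => absurd h.2 (not_lt.mpr hu.le)
  rw [if_neg h2]
  by_cases h : ε a = true
  · rw [if_pos ⟨h, hu⟩, if_pos h, card_insert_of_notMem (fun hm => ha (mem_filter.mp hm).1)]
    omega
  · rw [if_neg (fun h' => h h'.1), if_neg h]
    omega

lemma lev_insert_self (κ : ι → ℝ) (ε : ι → Bool) {s : Finset ι} {a : ι}
    (hlt : ∀ x ∈ s, κ x < κ a) :
    lev κ ε (insert a s) a = (s.filter fun v => ε v = false).card := by
  unfold lev
  rw [filter_insert, filter_insert, if_neg (fun h => lt_irrefl _ h.2),
    if_neg (fun h => lt_irrefl _ h.2)]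
  have h1 : (s.filter fun v => ε v = true ∧ κ a < κ v) = ∅ := by
    apply filter_eq_empty_iff.mpr
    intro x hx h
    exact absurd h.2 (not_lt.mpr (hlt x hx).le)
  have h2 : (s.filter fun v => ε v = false ∧ κ v < κ a) = s.filter fun v => ε v = false := by
    apply filter_congr
    intro x hx
    exact ⟨fun h => h.1, fun h => ⟨h, hlt x hx⟩⟩
  rw [h1, h2, card_empty, zero_add]

/-- parity of the number of passages through the gap `(c, c + 1)` -/
theorem level_parity (κ : ι → ℝ) (ε : ι → Bool) (s : Finset ι) :
    Set.InjOn κ s → ∀ c d : ℕ,
      ((s.filter fun u => lev κ ε s u + d = c).card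
        + (if (s.filter fun v => ε v = true).card + d ≤ c then 1 else 0)
        + (if (s.filter fun v => ε v = false).card + d ≤ c then 1 else 0)) % 2 = 0 := by
  induction s using Finset.induction_on_max_value κ with
  | empty =>
    intro _ c d
    simp only [filter_empty, card_empty, zero_add]
    split_ifs <;> rfl
  | insert a s ha hmax ih =>
    intro hinj c d
    have hinj' : Set.InjOn κ s := hinj.mono (by intro x hx; exact mem_coe.mpr (mem_insert_of_mem hx))
    have hlt : ∀ x ∈ s, κ x < κ a := by
      intro x hx
      refine lt_of_le_of_ne (hmax x hx) (fun h => ?_)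
      have := hinj (mem_coe.mpr (mem_insert_of_mem hx)) (mem_coe.mpr (mem_insert_self a s)) h
      exact ha (this ▸ hx)
    have hN : ((insert a s).filter fun u => lev κ ε (insert a s) u + d = c).card
        = (if (s.filter fun v => ε v = false).card + d = c then 1 else 0)
          + (s.filter fun u => lev κ ε s u + (d + (if ε a = true then 1 else 0)) = c).card := by
      rw [filter_insert, lev_insert_self κ ε hlt]
      have hcongr : (s.filter fun u => lev κ ε (insert a s) u + d = c)
          = s.filter fun u => lev κ ε s u + (d + (if ε a = true then 1 else 0)) = c := by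
        apply filter_congr
        intro x hx
        rw [lev_insert_of_mem κ ε ha (hlt x hx)]
        constructor <;> intro h <;> omega
      rw [hcongr]
      by_cases h1 : (s.filter fun v => ε v = false).card + d = c
      · rw [if_pos h1, if_pos h1, card_insert_of_notMem (fun hm => ha (mem_filter.mp hm).1), add_comm]
      · rw [if_neg h1, if_neg h1, zero_add]
    rw [hN, filter_insert, filter_insert]
    by_cases h : ε a = true
    · have h' : ¬ (ε a = false) := by rw [h]; simp
      rw [if_pos h, if_neg h', if_pos h, card_insert_of_notMem (fun hm => ha (mem_filter.mp hm).1)]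
      have := ih hinj' c (d + 1)
      revert this
      generalize (s.filter fun u => lev κ ε s u + (d + 1) = c).card = N
      generalize (s.filter fun v => ε v = true).card = A
      generalize (s.filter fun v => ε v = false).card = B
      intro this
      split_ifs at this ⊢ <;> omega
    · have h' : ε a = false := by simpa using h
      rw [if_neg h, if_pos h', if_neg h, card_insert_of_notMem (fun hm => ha (mem_filter.mp hm).1)]
      have := ih hinj' c d
      rw [add_zero]
      revert this
      generalize (s.filter fun u => lev κ ε s u + d = c).card = N
      generalize (s.filter fun v => ε v = true).card = A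
      generalize (s.filter fun v => ε v = false).card = B
      intro this
      split_ifs at this ⊢ <;> omega

/-- an odd number of elements is passed at level exactly `k` -/
theorem odd_level_count (κ : ι → ℝ) (ε : ι → Bool) (s : Finset ι) (hinj : Set.InjOn κ s) (k : ℕ)
    (hcard : s.card = 2 * k + 1) : Odd (s.filter fun u => lev κ ε s u = k).card := by
  have h := level_parity κ ε s hinj k 0
  simp only [add_zero] at h
  have hAB : (s.filter fun v => ε v = true).card + (s.filter fun v => ε v = false).card = 2 * k + 1 := by
    rw [← hcard, ← Finset.card_filter_add_card_filter_not (s := s) (fun v => ε v = true)]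
    congr 2
    apply filter_congr
    intro x _
    simp
  rw [Nat.odd_iff]
  revert h hAB
  generalize (s.filter fun u => lev κ ε s u = k).card = N
  generalize (s.filter fun v => ε v = true).card = A
  generalize (s.filter fun v => ε v = false).card = B
  intro h hAB
  split_ifs at h <;> omega

end Vale.Agent.P040.Sph11
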